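import Crest.Agent.X212.Map77.Wc
import Crest.Agent.X212.Nrm67.Main
import Crest.Agent.X212.Dec35.Cyl
import Crest.Agent.X212.Rf65.Zpk
import Crest.Agent.X212.Nbh31.Main
import Crest.Agent.X212.Clr59.Ys

/-!
# Row 212, GL-WALL-PSC, leaf ROW (helper47): the rows of the wall, generic part
-/

set_option autoImplicit false
set_option linter.unusedSectionVars false
noncomputable section
open scoped Manifold ContDiff Topology InnerProductSpace
open Set Function Filter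

namespace Crest.Agent.X212.Row47
open An An.Job M Nd18 Mod61 Gj67 Rf65 Pte3 Nk89 Map77 Sob92
open Cyf70 (IC)
open Rdc90 (Bs bh)
open Gl67 (ka cd_ka)

section cyl
variable {E3 : Type} [NormedAddCommGroup E3] [NormedSpace ℝ E3] [FiniteDimensional ℝ E3]
  [MeasurableSpace E3] [BorelSpace E3]
  {H3 : Type} [TopologicalSpace H3] {I3 : ModelWithCorners ℝ E3 H3} [I3.Boundaryless]
  {Y : Type} [TopologicalSpace Y] [ChartedSpace H3 Y] [IsManifold I3 ∞ Y] [T2Space Y]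
  [MeasurableSpace Y] [BorelSpace Y] [SecondCountableTopology Y] [CompactSpace Y]
  {κ : Type} [Fintype κ] {lam : Type} [Fintype lam] {D : YD I3 Y κ lam} {β : YC Y κ lam}
  {V : Type} [Fintype V] [DecidableEq V] {ν : V → κ → Y → ℝ} {ξ : Y → β.m.A} {ρ : ℝ}

variable (β ν ξ) in
/-- the moving limit -/
def bV (y : Y) : CL (V → ℝ) (Fm (Option κ) β.m.A) :=
  ∑ i, (ContinuousLinearMap.proj i).smulRight (fa (kk ν (some i) ξ (y, 0)))

theorem bV_apply (y : Y) (u : V → ℝ) (o : Option κ) :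
    bV β ν ξ y u o = (∑ i, u i * cν ν (some i) o (y, 0)) • ξ y := by
  simp [bV, fa_kk, Finset.sum_smul, mul_smul]

theorem sm_kk (S : Psc D.F ν ρ) (p : ParY D β ξ) (i : Option V) : Sm (IC I3) (kk ν i ξ) := fun x =>
  Wz78.SA.clm (i1 _ (Eu (Fin β.m.N))) (Wz78.SA.toLp (f := fun b y => cν ν i b y • ξ y.1) fun b =>
    (S.cyl.sm i b x).smul (Cyf70.sm_fst p.sm x))

theorem sm_mo (S : Psc D.F ν ρ) (p : ParY D β ξ) {bm : ℝ → ℝ} (cb : ContDiff ℝ ∞ bm) :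
    Sm (IC I3) fun z => (.pi fun i => bm z.2 • innerSL ℝ (kk ν (some i) ξ z) : CL _ (V → ℝ)) := by
  have e : ∀ z : Y × ℝ, (.pi fun i => bm z.2 • innerSL ℝ (kk ν (some i) ξ z) : CL _ (V → ℝ)) =
      ∑ i, (bm z.2 • innerSL ℝ (kk ν (some i) ξ z)).smulRight (Pi.single i 1) := fun z => by
    ext v i
    simp [Pi.single_apply]
  simp only [e]
  exact contMDiff_finsetSum fun i _ => Dec35.sm_clm ((ContinuousLinearMap.smulRightL ℝ
    (Cf (Option κ) (Fin β.m.N)) (V → ℝ)).flip (Pi.single i 1))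
    ((Cyf70.sm_snd cb).smul (Dec35.sm_clm (innerSL ℝ) (sm_kk S p (some i))))

theorem mo0 {z : Y × ℝ} {c : ℝ} (h : c = 0) :
    (.pi fun i => c • innerSL ℝ (kk ν (some i) ξ z) : CL _ (V → ℝ)) = 0 := by
  ext
  simp [h]

theorem cl0 (_ : IsEmpty V) {N : Type} [NormedAddCommGroup N] [NormedSpace ℝ N]
    (f : CL (V → ℝ) N) : f = 0 :=
  ContinuousLinearMap.ext fun _ => (congrArg f (Subsingleton.elim _ _)).trans (map_zero f)

theorem bV_none (y : Y) (u : V → ℝ) : bV β ν ξ y u none = 0 := by simp [bV_apply, cν]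

theorem sm_bV (S : Psc D.F ν ρ) (p : ParY D β ξ) : Sm I3 (bV β ν ξ) :=
  contMDiff_finsetSum fun i _ => Dec35.sm_clm (ContinuousLinearMap.smulRightL ℝ (V → ℝ)
    (Fm (Option κ) β.m.A) (ContinuousLinearMap.proj i))
    (Dec35.sm_clm fa (Cyf70.sm_slice_fst (sm_kk S p (some i)) 0))

theorem bV_mem (p : ParY D β ξ) (y : Y) (u : V → ℝ) (o : Option κ) : bV β ν ξ y u o ∈ β.m.gS y :=
  bV_apply (β := β) y u o ▸ (β.m.gS y).smul_mem _ (p.mem y)

theorem bV_P (S : Psc D.F ν ρ) (z : Y × ℝ) (u : V → ℝ) (o : Option κ) :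
    ∑ o', D.B.P o o' z • bV β ν ξ z.1 u o' = bV β ν ξ z.1 u o := by
  have e : ∀ i o', cν ν (some i) o' (z.1, 0) = cν ν (some i) o' z := fun i o' => by
    cases o' <;> rfl
  simp only [bV_apply, smul_smul, ← Finset.sum_smul, Finset.mul_sum, e, mul_left_comm _ (u _)]
  rw [Finset.sum_comm]
  simp only [← Finset.mul_sum]
  exact congrArg (· • _) (Finset.sum_congr rfl fun i _ => congrArg _ (S.cyl.P (some i) o z))

theorem bs_bV [Subsingleton V] (S : Psc D.F ν ρ) (b : Bs D β) (p : ParY D β ξ) (u : V → ℝ) :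
    Bs D (bh β (fun k y => bV β ν ξ y u (some k)) 0) := by
  cases isEmpty_or_nonempty V with
  | inl _ =>
    rw [show (fun k y => bV β ν ξ y u (some k)) = 0 from funext₂ fun k y => by simp [bV_apply],
      Rd78.bh_zero]
    exact b
  | inr h =>
    obtain ⟨v⟩ := h
    have S' : Psc D.F (fun _ : Fin 1 => ν v) ρ := ⟨S.pos, fun _ => S.sm v, fun _ => S.P v,
      fun _ => S.par v, fun i j x => by simpa [Subsingleton.elim i j] using S.ort v v x,
      fun b l x => by simpa [Fintype.sum_subsingleton _ v] using S.ric b l x, S.sc⟩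
    convert Clr59.bs_tw S' b p (u v) using 2
    funext k y
    simp [bV_apply, Fintype.sum_subsingleton _ v, cν, Clr59.tY_apply, mul_smul]

theorem crit_of {N : ND Y lam} (hN : Ink3.Nil N) (h : Bs D β) : N.Crit D β :=
  hN.crit.2 ⟨⟨h.adm.adm, fun x => (sub_zero _).trans (Nbh31.eqs_cy h univ x trivial).1,
    fun x => (sub_zero _).trans (sub_eq_zero.2 (Nbh31.eqs_cy h univ x trivial).2),
    fun i => i.elim0⟩, h.adm.tmp⟩

end cyl

variable {Wi : Type} {X : Mf 4} {A κ lam : Type} [Fintype A] [Fintype κ] [Fintype lam]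
  [DecidableEq lam] {M : Mark X A κ} {W : World M} {L : ML M lam} {Λ : Lns W L}
  {A' h : Type} [Fintype A'] [DecidableEq A'] [Fintype h] {r n : ℕ}
  {J : Job Wi Λ A' h r n} {σ : Cel A'} {a : A'} {U Up R : Type} [NormedAddCommGroup U]
  [NormedSpace ℝ U] [NormedAddCommGroup Up] [NormedSpace ℝ Up] [NormedAddCommGroup R]
  [NormedSpace ℝ R] {d : Dat J σ a U Up R} {q : Wi →₀ ℝ} {δ : ℝ} (H : d.OK q δ)
include H

theorem src (s : Bool) {z : d.Y × ℝ} (hz : d.R0 < -pm s * z.2) : z ∈ (d.KS s).ψ.source :=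
  (d.KS s).mem_src.2 ((Gb50.S_J H s).2 (by linarith [H.R1]))

theorem ext_lit (R2 : 2 ≤ d.R0) {N : Type} [NormedAddCommGroup N] [NormedSpace ℝ N] (f : d.Y → N) :
    d.Lit ((d.KS false).ext f + (d.KS true).ext f) fun z => f z.1 := fun s y t _ hz _ => by
  have k := src H s (z := (y, t)) hz
  have k1 := (d.KS s).ψ.map_source k
  have e1 : (d.KS s).ext f ((d.KS s).ψ (y, t)) = f y := by
    have := H.ok.nk _ _ _ _ (d.hb s)
    rw [Nk.ext, (d.KS s).ψ.left_inv k, (d.KS s).χ_one, one_smul]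
    rw [Nk.dp, mem_preimage, (d.KS s).tm_ψ _ k, this.lo, this.hi]
    cases s <;> simp [Dp, pm] at hz ⊢ <;> linarith
  have e2 : (d.KS (!s)).ext f ((d.KS s).ψ (y, t)) = 0 := by
    rw [Nk.ext, Eqv71.χ_off, zero_smul]
    intro f
    have a1 := ((Gb50.S_tgt H _).1 k1).2
    have a2 := ((Gb50.S_tgt H (!s)).1 f).2
    cases s <;> simp [pm] at a1 a2 <;> linarith
  cases s
  · exact (congrArg₂ (· + ·) e1 e2).trans (add_zero _)
  · exact (congrArg₂ (· + ·) e2 e1).trans (zero_add _)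

/-- a moving limit extends to the face -/
theorem ex_bS (R2 : 2 ≤ d.R0) {U' : Type} [NormedAddCommGroup U'] [NormedSpace ℝ U']
    {f : d.Y → CL U' (Fm (Option κ) (HS (Fin d.N)))} (hf : Sm (J.xs d.x).Y.I f)
    (hm : ∀ y u o, f y u o ∈ (d.β 0).m.gS y)
    (hP : ∀ (z : d.Y × ℝ) u o, ∑ o', d.D.B.P o o' z • f z.1 u o' = f z.1 u o) :
    ∃ bS, d.FS.F0.Cb bS ∧ d.Lit bS (fun z => f z.1) ∧
      ∀ x u, d.S.md.p1 d.FS.B x (bS x u) = bS x u := by
  refine ⟨fun z => d.S.md.p1 d.FS.B z ∘L ((d.KS false).ext f + (d.KS true).ext f) z,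
    Cb_comp ((⟨H.okS.fam.cP, H.okS.fam.co, H.okS.cp, H.okS.cρ, H.okS.cj⟩ : Std94.Kl.Dat
      (Std94.cbK d.FS.F0.toPre) d.FS.B d.S.md id).p1 H.okS.fam.B (Std94.pmx H.okS.ok))
      (Cb_add ((d.KS false).cb_ext hf) ((d.KS true).cb_ext hf)), fun s y t v hz hv => ?_,
    fun x u => Std94.p1_p1 H.okS.fam.B x _⟩
  refine (congrArg (_ ∘L ·) (ext_lit H R2 f s y t v hz hv)).trans
    (ContinuousLinearMap.ext fun u => Spn45.p1_iff.2 ⟨fun o => ?_, fun o => ?_⟩)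
  · obtain ⟨h1, h2, h3, h4, h5⟩ := hm y u o
    exact ⟨h1, (congrArg (· * _) (H.lp s y t v hz hv)).trans h2, h3,
      fun b => have e := H.lρ b s y t v hz hv
        (congrArg (· * _) e).trans ((h4 b).trans (congrArg (_ * ·) e.symm)),
      fun b => have e := congrArg (· b) (H.lj s y t v hz hv)
        (congrArg (· * _) e).trans ((h5 b).trans (congrArg (_ * ·) e.symm))⟩
  · exact (Finset.sum_congr rfl fun o' _ => congrArg (· • _)
      ((d.KS s).P o o' _ (src H s (z := (y, t)) hz))).trans (hP (y, t) u o)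

/-- the drift of a potential which is linear on the ends -/
theorem lit_D {g : (W.Z (J.cf a)).M → ℝ} {c c' : Bool → ℝ}
    (hg : ∀ s (z : d.Y × ℝ), d.R0 < -pm s * z.2 → g ((d.KS s).ψ z) = c s * z.2 + c' s)
    (i : Option κ) (s : Bool) (z : d.Y × ℝ) (hz : d.R0 < -pm s * z.2) :
    (J.G _ d.y.s).F.D i g ((d.KS s).ψ z) = i.elim (c s) fun _ => 0 := by
  have cd : ContDiff ℝ ∞ fun t : ℝ => c s * t + c' s := by fun_prop
  rw [← (d.KS s).rel.D (u := fun z => c s * z.2 + c' s) (src H s hz) i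
    (((isOpen_lt (f := fun _ => d.R0) (g := fun z : d.Y × ℝ => -pm s * z.2) continuous_const
      (by fun_prop)).eventually_mem hz).mono fun w k => (hg s w k).symm)]
  cases i with
  | none => exact (congrFun (Cyf70.D_none_snd d.D.F.toPre cd) z).trans (by simp)
  | some i => exact congrFun (Cyf70.D_some_snd d.D.F.toPre cd i) z

omit H in
theorem cb_g (c c' e : ℝ) (i : Option κ) : d.FS.F0.Cb ((J.G _ d.y.s).F.D i fun z =>
    c * ka ((d.KS false).τ z - e) - c' * ka (-(d.KS true).τ z - e)) := by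
  have t := fun (b' : Bool) (u : ℝ) (he : |u| ≤ 1) =>
    Nrm67.cb_ka (d.KS b').sm_τ (d.KS b').cd_τ.2 he (-e) i
  have s := fun (b' : Bool) (u : ℝ) => (Neck67.cd_aff cd_ka u (-e)).contMDiff.comp (d.KS b').sm_τ
  have e1 := (Pre.D_add (F := d.FS.F0.toPre) (u := c • _) (v := (-c') • _)
    (Dec35.sm_clm (c • .id ℝ ℝ) (s false 1)) (Dec35.sm_clm (-c' • .id ℝ ℝ) (s true (-1))) i).trans
    (congrArg₂ (· + ·) (Pre.D_smul _ (s false 1) c i) (Pre.D_smul _ (s true (-1)) (-c') i))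
  refine (congrArg (d.FS.F0.D i) (funext fun w => ?_)).trans e1 ▸
    Cb_add (Cb_smul (Cb_const c) (t false 1 (by simp))) (Cb_smul (Cb_const (-c'))
      (t true (-1) (by simp)))
  simp [sub_eq_add_neg]

omit H in
variable (d) in
/-- new rows -/
def upd (bS : (W.Z (J.cf a)).M → CL U (Fm (Option κ) (HS (Fin d.N))))
    (dS : Option κ → (W.Z (J.cf a)).M → ℝ) (lz : CL (EuclideanSpace ℂ (Fin r)) R)
    (bZ : d.Y → CL U (Fm (Option κ) (HS (Fin d.N)))) (dZ : Option κ → d.Y × ℝ → ℝ)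
    (bp : d.Y × ℝ → ℝ) (mo : d.Y × ℝ → CL (Cf (Option κ) (Fin d.N)) Up) : Dat J σ a U Up R :=
  { d with bS := bS, dS := dS, lo := 0, lz := lz, bZ := bZ, dZ := dZ, bp := bp, mo := mo }

theorem ok_upd {bS : (W.Z (J.cf a)).M → CL U (Fm (Option κ) (HS (Fin d.N)))} {dS lz}
    {bZ : d.Y → CL U (Fm (Option κ) (HS (Fin d.N)))} {dZ bp mo} (h1 : d.FS.F0.Cb bS)
    (h2 : ∀ x u, d.S.md.p1 d.FS.B x (bS x u) = bS x u) (h3 : ∀ i, d.FS.F0.Cb (dS i))
    (h4 : d.D.Z.Cb fun z => bZ z.1)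
    (h5 : ∀ (x : d.Y × ℝ) u, (cy (d.β 0)).m.p1 d.D.B x (bZ x.1 u) = bZ x.1 u)
    (h6 : ∀ i, d.D.Z.Cb (dZ i)) (h7 : Sm (IC (J.xs d.x).Y.I) bp) (h8 : Sm (IC (J.xs d.x).Y.I) mo)
    (lb : d.Lit bS fun z => bZ z.1) (ld : ∀ i, d.Lit (dS i) (dZ i))
    (h0 : ∀ z : d.Y × ℝ, 1 ≤ |z.2| → bp z = 0 ∧ mo z = 0)
    (cr : ∀ u, (J.xs d.x).N.Crit d.D ((upd d bS dS lz bZ dZ bp mo).β u))
    (b0 : (bS = 0 ∧ bZ = 0) ∨ (∀ x, Ink3.Nil (J.xs x).N ∧ (J.xs x).ty = 0) ∧ d.ΦZ = 0) :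
    (upd d bS dS lz bZ dZ bp mo).OK q δ :=
  have hcs : ∀ {N : Type} [Zero N] {f : d.Y × ℝ → N}, (∀ z, 1 ≤ |z.2| → f z = 0) →
      HasCompactSupport f := fun k => .intro (isCompact_univ.prod (isCompact_Icc (a := -1) (b := 1)))
    fun x hx => k x (not_lt.1 fun k => hx ⟨trivial, abs_le.1 k.le⟩)
  have e : d.β 0 = (upd d bS dS lz bZ dZ bp mo).β 0 := Pj41.cfg_ext rfl rfl rfl (funext₂ fun i y =>
    congrArg (fun w : Fm _ _ => d.AZ i y + opL (w i)) ((map_zero _).trans (map_zero _).symm)) rfl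
  { H with
    okS := { H.okS with cb := h1, pb := h2, cd := h3, lo := Nrm67.z0 }
    okZ := fun τ => { H.okZ τ with
      cb := h4
      pb := h5
      cd := h6
      bp := ⟨h7, hcs fun z k => (h0 z k).1⟩
      mo := ⟨h8, hcs fun z k => (h0 z k).2⟩ }
    lb := lb
    ld := ld
    ll := fun _ _ _ _ _ _ => rfl
    bp := h0
    β := fun b => ⟨(H.β b).1.trans e, (H.β b).2⟩
    crit := .of_forall cr
    b0 := b0 }

omit H in
theorem ok_rows {V : Type} [Fintype V] [DecidableEq V] [Subsingleton V]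
    {d : Dat J σ a (V → ℝ) (V → ℝ) ℝ} (H : d.OK q δ) {ν : V → κ → d.Y → ℝ}
    {ξ : d.Y → (d.β 0).m.A} {ρ η : ℝ} (nil : Ink3.Nil (J.xs d.x).N)
    (b0 : IsEmpty V ∨ ∀ x, Ink3.Nil (J.xs x).N ∧ (J.xs x).ty = 0) (S : Psc d.D.F ν ρ)
    (bs : Bs d.D (d.β 0)) (p : ParY d.D (d.β 0) ξ) {bm : ℝ → ℝ} (cb : ContDiff ℝ ∞ bm)
    (zb : ∀ {t}, 1 ≤ |t| → bm t = 0) {bS} (h1 : d.FS.F0.Cb bS)
    (h2 : d.Lit bS fun z => bV (d.β 0) ν ξ z.1) (h3 : ∀ x u, d.S.md.p1 d.FS.B x (bS x u) = bS x u)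
    {g : (W.Z (J.cf a)).M → ℝ} (g1 : ∀ i, d.FS.F0.Cb ((J.G _ d.y.s).F.D i g)) {c' : Bool → ℝ}
    (g2 : ∀ s (z : d.Y × ℝ), d.R0 < -pm s * z.2 →
      g ((d.KS s).ψ z) = (η - -pm s * δ) * z.2 + c' s) {d₀ : Option κ → _ → ℝ}
    (hd : ∀ i, d.FS.F0.Cb (d₀ i) ∧ d.Lit (d₀ i) (drZ κ d.Y (-2 * δ) i)) (lz) :
    (upd d bS (fun i z => d₀ i z + (J.G _ d.y.s).F.D i g z) lz (bV (d.β 0) ν ξ)
      (fun i z => i.elim (η - δ * deriv rho z.2) fun _ => 0) (fun z => bm z.2)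
      fun z => .pi fun i => bm z.2 • innerSL ℝ (kk ν (some i) ξ z)).OK q δ := by
  refine ok_upd H h1 h3 (fun i => Cb_add (hd i).1 (g1 i))
    (Dec35.cb_fst (D := d.D) (Cyf70.sm_fst (sm_bV S p)))
    (fun x u => Spn45.p1_iff.2 ⟨bV_mem p x.1 u, bV_P S x u⟩) (fun i => ?_) (Cyf70.sm_snd cb) ?_ h2
    (fun i s y t v hz hv => ?_) (fun z k => ⟨zb k, ?_⟩) (fun u => ?_)
    (b0.imp (fun e => ⟨funext fun _ => cl0 e _, funext fun _ => cl0 e _⟩) fun k => ⟨k, funext bs.zr⟩)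
  · cases i with
    | none => exact Cb_sub (Cb_const η) (Cb_smul (Cb_const δ) (Dec35.cb_snd (D := d.D) Gb50.sm_drho))
    | some i => exact Cb_const 0
  · exact sm_mo S p cb
  · refine (congrArg₂ (· + ·) ((hd i).2 s y t v hz hv) (lit_D H g2 i s (y, t) hz)).trans ?_
    cases i <;> simp [drZ, Map77.Wc.d_rho hv]
    ring
  · exact mo0 (β := d.β 0) (zb k)
  · convert crit_of nil (bs_bV S bs p u) using 1
    refine Pj41.cfg_ext rfl rfl rfl (funext₂ fun o y => congrArg₂ (· + ·) ?_ (congrArg opL ?_))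
      (funext fun y => (add_zero _).symm)
    · simp [Dat.β, upd]
    · cases o
      exacts [bV_none y u, rfl]

end Crest.Agent.X212.Row47
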