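import Crest.Agent.X212.Row47.Gen
import Crest.Agent.X212.Wal14.Cx

/-!
# Row 212, GL-WALL-PSC, leaf ROW (helper47)
-/

set_option autoImplicit false
set_option linter.unusedSectionVars false
noncomputable section

namespace Crest.Agent.X212.Row47
open An M

variable {Wi : Type} {X : Mf 4} {A κ lam : Type} [Fintype A] [Fintype κ] [Fintype lam]
  [DecidableEq lam] {M : Mark X A κ} {W : World M} {L : ML M lam} {Λ : Lns W L}
  {A' h : Type} [Fintype A'] [DecidableEq A'] [Fintype h] {r n : ℕ}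

/-- **LEAF ROW** -/
theorem rowL (J : Job Wi Λ A' h r n) : Wal14.RowL J := fun σ a V _ _ d q δ ν ξ P => by
  have := P.sub
  obtain ⟨ρ, S⟩ := P.psc
  obtain ⟨bS, h1, h2, h3⟩ := ex_bS P.ok (by linarith [P.R6]) (sm_bV S P.par) (bV_mem P.par)
    (bV_P S)
  exact ⟨bS, h1, h2, fun η d₀ hd => ok_rows P.ok P.nil.1 P.b0 S P.bs P.par Iz83.bm_cd
    Iz83.bm_zero.2 h1 h2 h3 (cb_g _ _ _) (fun s _ => Wal14.gS_end P.ok s) hd _⟩

end Crest.Agent.X212.Row47
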